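import Vale.Agent.P092.H613.SynDef
import Vale.Agent.P092.H613.Alg3
import Vale.Agent.P092.H218.Loc

/-!
P092, Team D, block D-WRD (helper406): the bridge between a unital star homomorphism `β` on the
continuous functions of the real projective plane and its nine operators `β(z_i z_j)`.
-/

set_option linter.unusedSectionVars false
set_option linter.unusedSimpArgs false

namespace Vale.Agent.P092.H406

open Finset TopologicalSpace Topology
open scoped LinearAlgebra.Projectivization
open Vale.Agent.P092.H820 Vale.Agent.P092.H613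
open Vale.Agent.P092.H218 (toC toC_apply)

theorem zz_sym (i j : Fin 3) : zz i j = zz j i := by
  ext x
  obtain ⟨v, hv, h1, rfl⟩ := exists_unit x
  rw [zz_mk_unit _ _ _ _ h1, zz_mk_unit _ _ _ _ h1, mul_comm]

theorem zz_minor (i j k l : Fin 3) : zz i j * zz k l = zz i k * zz j l := by
  ext x
  obtain ⟨v, hv, h1, rfl⟩ := exists_unit x
  simp only [ContinuousMap.mul_apply]
  rw [zz_mk_unit _ _ _ _ h1, zz_mk_unit _ _ _ _ h1, zz_mk_unit _ _ _ _ h1,
    zz_mk_unit _ _ _ _ h1]
  ring

theorem zz_tr (x : P2) : ∑ i, zz i i x = 1 := by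
  obtain ⟨v, hv, h1, rfl⟩ := exists_unit x
  rw [← h1]
  refine Finset.sum_congr rfl fun i _ => ?_
  rw [zz_mk_unit _ _ _ _ h1, sq]

/-- the functions `z_i z_j` separate the points -/
theorem zz_sep {x y : P2} (h : ∀ i j, zz i j x = zz i j y) : x = y := by
  obtain ⟨v, hv, h1, rfl⟩ := exists_unit x
  obtain ⟨w, hw, h2, rfl⟩ := exists_unit y
  have h' : ∀ i j, v i * v j = w i * w j := fun i j => by
    have := h i j
    rwa [zz_mk_unit _ _ _ _ h1, zz_mk_unit _ _ _ _ h2] at this
  obtain ⟨i, hi⟩ : ∃ i, v i ≠ 0 := by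
    by_contra hc
    push Not at hc
    exact hv (funext hc)
  have hwi : w i ≠ 0 := by
    intro h0
    have := h' i i
    rw [h0, mul_zero] at this
    exact hi (mul_self_eq_zero.1 this)
  refine (Projectivization.mk_eq_mk_iff' ℝ _ _ hv hw).2 ⟨v i / w i, ?_⟩
  funext j
  simp only [Pi.smul_apply, smul_eq_mul]
  have h3 := h' i j
  have h4 := h' i i
  have h5 : v i * (v i * w j - w i * v j) = 0 := by
    calc v i * (v i * w j - w i * v j) = (v i * v i) * w j - w i * (v i * v j) := by ring
      _ = 0 := by rw [h4, h3]; ring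
  have h6 : v i * w j - w i * v j = 0 := (mul_eq_zero.1 h5).resolve_left hi
  rw [div_mul_eq_mul_div, div_eq_iff hwi]
  linarith

/-- the generating set -/
def gens : Set C(P2, ℂ) := Set.range fun p : Fin 3 × Fin 3 => toC (zz p.1 p.2)

theorem star_toC {X : Type*} [TopologicalSpace X] [CompactSpace X] (f : C(X, ℝ)) :
    star (toC f) = toC f := by
  ext x
  simp [toC_apply]

theorem star_gens : star gens = gens := by
  ext f
  rw [Set.mem_star]
  constructor
  · rintro ⟨p, hp⟩
    refine ⟨p, ?_⟩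
    simp only at hp ⊢
    rw [← star_star f, ← hp, star_toC]
  · rintro ⟨p, rfl⟩
    exact ⟨p, by simp only [star_toC]⟩

/-- Stone-Weierstrass: the words in `z_i z_j` are total. -/
theorem adjoin_dense : (StarAlgebra.adjoin ℂ gens).topologicalClosure = ⊤ := by
  refine ContinuousMap.starSubalgebra_topologicalClosure_eq_top_of_separatesPoints _ ?_
  intro x y hxy
  obtain ⟨i, j, hij⟩ : ∃ i j, zz i j x ≠ zz i j y := by
    by_contra hc
    push Not at hc
    exact hxy (zz_sep hc)
  refine ⟨toC (zz i j), ⟨toC (zz i j), StarAlgebra.subset_adjoin ℂ _ ⟨(i, j), rfl⟩, rfl⟩, ?_⟩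
  rw [toC_apply, toC_apply]
  exact_mod_cast hij

variable {K : Type*} [NormedAddCommGroup K] [InnerProductSpace ℂ K] [CompleteSpace K]

/-- the nine operators of a calculus -/
noncomputable def nine (β : C(P2, ℂ) →⋆ₐ[ℂ] (K →L[ℂ] K)) : M3 (K →L[ℂ] K) :=
  fun i j => β (toC (zz i j))

/-- (a) the relations -/
theorem r1 (β : C(P2, ℂ) →⋆ₐ[ℂ] (K →L[ℂ] K)) : R1 (fun i j => β (toC (zz i j))) where
  sa i j := by rw [← map_star, star_toC]
  sym i j := by rw [zz_sym]
  cm i j k l := by rw [← map_mul, ← map_mul, mul_comm]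
  tr := by
    rw [← map_sum, ← map_one β]
    congr 1
    ext x
    rw [ContinuousMap.sum_apply]
    simp only [toC_apply, ContinuousMap.one_apply]
    rw [← Complex.ofReal_sum, zz_tr, Complex.ofReal_one]
  minor i j k l := by
    rw [← map_mul, ← map_mul]
    congr 1
    ext x
    have := congrArg (fun f : C(P2, ℝ) => ((f x : ℝ) : ℂ)) (zz_minor i j k l)
    simpa [toC_apply] using this

/-- a property of continuous functions which is closed, linear and holds for the words
holds for all -/
theorem induct {P : C(P2, ℂ) → Prop} (hc : IsClosed {f | P f}) (hadd : ∀ f g, P f → P g → P (f + g))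
    (hsm : ∀ (c : ℂ) f, P f → P (c • f))
    (hw : ∀ w : List (Fin 3 × Fin 3), P (w.map fun p => toC (zz p.1 p.2)).prod) (f : C(P2, ℂ)) :
    P f := by
  have h0 : P 0 := by
    have h1 := hsm 0 _ (hw [])
    have h2 : (0 : ℂ) • (List.map (fun p : Fin 3 × Fin 3 => toC (zz p.1 p.2)) []).prod
        = (0 : C(P2, ℂ)) := by
      ext x
      rw [ContinuousMap.smul_apply, zero_smul]
      rfl
    rwa [h2] at h1
  have h1 : ∀ f ∈ StarAlgebra.adjoin ℂ gens, P f := by
    intro f hf
    have h2 : f ∈ Algebra.adjoin ℂ gens := by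
      have h3 : f ∈ (StarAlgebra.adjoin ℂ gens).toSubalgebra := hf
      rw [StarAlgebra.adjoin_toSubalgebra, star_gens, Set.union_self] at h3
      exact h3
    have h4 : f ∈ Submodule.span ℂ (Submonoid.closure gens : Set C(P2, ℂ)) := by
      rw [← Algebra.adjoin_eq_span]
      exact h2
    refine Submodule.span_induction (p := fun f _ => P f) ?_ h0 (fun f g _ _ => hadd f g)
      (fun c f _ => hsm c f) h4
    intro g hg
    have h5 : ∃ w : List (Fin 3 × Fin 3), g = (w.map fun p => toC (zz p.1 p.2)).prod := by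
      refine Submonoid.closure_induction
        (motive := fun g _ => ∃ w : List (Fin 3 × Fin 3), g = (w.map fun p => toC (zz p.1 p.2)).prod)
        ?_ ⟨[], rfl⟩ ?_ hg
      · rintro _ ⟨p, rfl⟩
        exact ⟨[p], by simp⟩
      · rintro _ _ _ _ ⟨w, rfl⟩ ⟨w', rfl⟩
        exact ⟨w ++ w', by simp⟩
    obtain ⟨w, rfl⟩ := h5
    exact hw w
  have h6 : f ∈ (StarAlgebra.adjoin ℂ gens).topologicalClosure := by
    rw [adjoin_dense]; trivial
  exact closure_minimal (s := (StarAlgebra.adjoin ℂ gens : Set C(P2, ℂ))) (fun g hg => h1 g hg) hc h6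

theorem map_words (β : C(P2, ℂ) →⋆ₐ[ℂ] (K →L[ℂ] K)) (w : List (Fin 3 × Fin 3)) :
    β (w.map fun p => toC (zz p.1 p.2)).prod = word (fun i j => β (toC (zz i j))) w := by
  rw [map_list_prod, List.map_map]
  rfl

theorem cont_hom (β : C(P2, ℂ) →⋆ₐ[ℂ] (K →L[ℂ] K)) : Continuous β :=
  (AddMonoidHomClass.continuous_of_bound β 1 fun f => by
    rw [one_mul]; exact NonUnitalStarAlgHom.norm_apply_le β f)

/-- (b) agreement on words is agreement on all continuous functions -/
theorem agree (β₁ β₂ : C(P2, ℂ) →⋆ₐ[ℂ] (K →L[ℂ] K)) (ξ : K)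
    (h : ∀ w, word (fun i j => β₁ (toC (zz i j))) w ξ = word (fun i j => β₂ (toC (zz i j))) w ξ)
    (f : C(P2, ℂ)) : β₁ f ξ = β₂ f ξ := by
  refine induct (P := fun f => β₁ f ξ = β₂ f ξ) ?_ ?_ ?_ ?_ f
  · exact isClosed_eq ((cont_hom β₁).clm_apply continuous_const)
      ((cont_hom β₂).clm_apply continuous_const)
  · intro f g hf hg
    rw [map_add, map_add, _root_.add_apply, _root_.add_apply, hf, hg]
  · intro c f hf
    rw [map_smul, map_smul, _root_.smul_apply, _root_.smul_apply, hf]
  · intro w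
    rw [map_words, map_words]
    exact h w

/-- (b') the hypothesis of `opp` and `all` -/
theorem noAgree (β₁ β₂ : C(P2, ℂ) →⋆ₐ[ℂ] (K →L[ℂ] K)) (h : ∀ ξ, (∀ f, β₁ f ξ = β₂ f ξ) → ξ = 0) :
    NoAgree (fun i j => β₁ (toC (zz i j))) (fun i j => β₂ (toC (zz i j))) :=
  fun ξ hξ => h ξ fun f => agree β₁ β₂ ξ hξ f

/-- (c) commuting with the nine operators is commuting with the calculus -/
theorem comm_all (β : C(P2, ℂ) →⋆ₐ[ℂ] (K →L[ℂ] K)) (X : K →L[ℂ] K)
    (h : ∀ i j, X * β (toC (zz i j)) = β (toC (zz i j)) * X) (f : C(P2, ℂ)) :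
    X * β f = β f * X := by
  refine induct (P := fun f => X * β f = β f * X) ?_ ?_ ?_ ?_ f
  · exact isClosed_eq (continuous_const.mul (cont_hom β)) ((cont_hom β).mul continuous_const)
  · intro f g hf hg
    rw [map_add, mul_add, add_mul, hf, hg]
  · intro c f hf
    rw [map_smul, mul_smul_comm, smul_mul_assoc, hf]
  · intro w
    rw [map_words]
    induction w with
    | nil => simp [word]
    | cons p w ih =>
      have e : word (fun i j => β (toC (zz i j))) (p :: w)
          = β (toC (zz p.1 p.2)) * word (fun i j => β (toC (zz i j))) w := by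
        simp [word]
      rw [e, ← mul_assoc, h, mul_assoc, ih, mul_assoc]

/-- (c') two calculi commute if their nine operators commute -/
theorem comm_of_nine (β γ : C(P2, ℂ) →⋆ₐ[ℂ] (K →L[ℂ] K))
    (h : Com3 (fun i j => β (toC (zz i j))) (fun i j => γ (toC (zz i j)))) (f g : C(P2, ℂ)) :
    Commute (β f) (γ g) := by
  refine comm_all γ (β f) (fun i j => ?_) g
  exact (comm_all β (γ (toC (zz i j))) (fun k l => (h k l i j).symm) f).symm

end Vale.Agent.P092.H406
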