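import Vale.Agent.P092.H406.Br
import Vale.Agent.P092.H179.Opp
import Vale.Agent.P092.SD.Defs

/-!
P092, Team D (helper406): the functions `z_i z_j / |z|²` on the real projective plane are
coordinate functions in the sense of helper179's `Crd`; they are Lipschitz in the sense of
`SD.LipP`.
-/

set_option linter.unusedSectionVars false
set_option linter.unusedSimpArgs false

namespace Vale.Agent.P092.H406

open Finset TopologicalSpace Topology
open scoped LinearAlgebra.Projectivization
open Vale.Agent.P092.H820 Vale.Agent.P092.H613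
open Vale.Agent.P092.H218 (toC toC_apply)

/-- helper179's block D-CRD -/
theorem crd : H179.Crd (fun i j => toC (zz i j)) where
  rk :=
    { symm := fun i j => by rw [zz_sym]
      rk := fun i j k l => by
        ext x
        have := congrArg (fun f : C(P2, ℝ) => ((f x : ℝ) : ℂ)) (zz_minor i j k l)
        simpa [toC_apply] using this
      tr := by
        ext x
        rw [ContinuousMap.sum_apply]
        simp only [toC_apply, ContinuousMap.one_apply]
        rw [← Complex.ofReal_sum, zz_tr, Complex.ofReal_one] }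
  real := fun i j => star_toC _
  gen := by
    unfold H179.Gen
    have h1 := adjoin_dense
    have h2 : (StarAlgebra.adjoin ℂ gens).toSubalgebra = Algebra.adjoin ℂ gens := by
      rw [StarAlgebra.adjoin_toSubalgebra, star_gens, Set.union_self]
    rw [eq_top_iff]
    intro f _
    have h3 : f ∈ (StarAlgebra.adjoin ℂ gens).topologicalClosure := by rw [h1]; trivial
    have h4 : f ∈ closure ((StarAlgebra.adjoin ℂ gens : StarSubalgebra ℂ C(P2, ℂ)) :
      Set C(P2, ℂ)) := h3
    have h5 : ((StarAlgebra.adjoin ℂ gens : StarSubalgebra ℂ C(P2, ℂ)) : Set C(P2, ℂ))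
        = ((Algebra.adjoin ℂ gens : Subalgebra ℂ C(P2, ℂ)) : Set C(P2, ℂ)) := by
      rw [← h2]; rfl
    rw [h5] at h4
    exact h4

/-- an elementary estimate -/
theorem zf_lip {v w : Fin 3 → ℝ} (hv : ‖v‖ = 1) (hw : ‖w‖ = 1) (i j : Fin 3) :
    |zf i j v - zf i j w| ≤ 12 * ‖v - w‖ := by
  have hva : ∀ i, |v i| ≤ 1 := fun i => by
    have := norm_le_pi_norm v i
    rwa [hv, Real.norm_eq_abs] at this
  have hwa : ∀ i, |w i| ≤ 1 := fun i => by
    have := norm_le_pi_norm w i
    rwa [hw, Real.norm_eq_abs] at this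
  have hd : ∀ i, |v i - w i| ≤ ‖v - w‖ := fun i => by
    have := norm_le_pi_norm (v - w) i
    rwa [Real.norm_eq_abs] at this
  have hge : ∀ u : Fin 3 → ℝ, ‖u‖ = 1 → 1 ≤ ∑ k, u k ^ 2 := by
    intro u hu
    obtain ⟨k, hk⟩ : ∃ k, 1 ≤ ‖u k‖ := by
      by_contra hc
      push Not at hc
      have := (pi_norm_lt_iff one_pos).2 hc
      rw [hu] at this
      exact lt_irrefl _ this
    have h1 : 1 ≤ u k ^ 2 := by
      rw [← sq_abs, ← Real.norm_eq_abs]
      nlinarith
    calc (1 : ℝ) ≤ u k ^ 2 := h1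
      _ ≤ ∑ k, u k ^ 2 := Finset.single_le_sum (f := fun k => u k ^ 2)
        (fun k _ => sq_nonneg _) (Finset.mem_univ k)
  have hp : ∀ i j, |v i * v j - w i * w j| ≤ 2 * ‖v - w‖ := by
    intro i j
    have e : v i * v j - w i * w j = (v i - w i) * v j + w i * (v j - w j) := by ring
    rw [e]
    have h1 : |(v i - w i) * v j| ≤ ‖v - w‖ * 1 := by
      rw [abs_mul]; exact mul_le_mul (hd i) (hva j) (abs_nonneg _) (norm_nonneg _)
    have h2 : |w i * (v j - w j)| ≤ 1 * ‖v - w‖ := by
      rw [abs_mul]; exact mul_le_mul (hwa i) (hd j) (abs_nonneg _) zero_le_one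
    have h3 := abs_add_le ((v i - w i) * v j) (w i * (v j - w j))
    linarith
  set a := ∑ k, v k ^ 2 with ha
  set b := ∑ k, w k ^ 2 with hb
  have ha1 := hge v hv
  have hb1 := hge w hw
  have hb3 : b ≤ 3 := by
    rw [hb, Fin.sum_univ_three]
    have := fun i => sq_le_one_iff_abs_le_one (w i) |>.2 (hwa i)
    linarith [this 0, this 1, this 2]
  have hab : |a - b| ≤ 6 * ‖v - w‖ := by
    have e : a - b = (v 0 * v 0 - w 0 * w 0) + (v 1 * v 1 - w 1 * w 1)
        + (v 2 * v 2 - w 2 * w 2) := by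
      rw [ha, hb, Fin.sum_univ_three, Fin.sum_univ_three]; ring
    rw [e]
    have h1 := abs_add_le ((v 0 * v 0 - w 0 * w 0) + (v 1 * v 1 - w 1 * w 1))
      (v 2 * v 2 - w 2 * w 2)
    have h2 := abs_add_le (v 0 * v 0 - w 0 * w 0) (v 1 * v 1 - w 1 * w 1)
    linarith [hp 0 0, hp 1 1, hp 2 2]
  have ha0 : 0 < a := by linarith
  have hb0 : 0 < b := by linarith
  have hz : zf i j v - zf i j w
      = (v i * v j - w i * w j) / a + (w i * w j) * (b - a) / (a * b) := by
    unfold zf
    rw [← ha, ← hb]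
    field_simp
    ring
  rw [hz]
  have h1 : |(v i * v j - w i * w j) / a| ≤ 2 * ‖v - w‖ := by
    rw [abs_div, abs_of_pos ha0]
    exact (div_le_self (abs_nonneg _) ha1).trans (hp i j)
  have h2 : |(w i * w j) * (b - a) / (a * b)| ≤ 6 * ‖v - w‖ := by
    rw [abs_div, abs_of_pos (mul_pos ha0 hb0)]
    refine (div_le_self (abs_nonneg _) ?_).trans ?_
    · nlinarith
    · rw [abs_mul, abs_mul, abs_sub_comm b a]
      have h3 : |w i| * |w j| ≤ 1 := by
        calc |w i| * |w j| ≤ 1 * 1 := mul_le_mul (hwa i) (hwa j) (abs_nonneg _) zero_le_one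
          _ = 1 := one_mul 1
      calc |w i| * |w j| * |a - b| ≤ 1 * (6 * ‖v - w‖) :=
            mul_le_mul h3 hab (abs_nonneg _) zero_le_one
        _ = _ := one_mul _
  have h3 := abs_add_le ((v i * v j - w i * w j) / a) ((w i * w j) * (b - a) / (a * b))
  have h4 := norm_nonneg (v - w)
  linarith

/-- the functions `z_i z_j / |z|²` are Lipschitz -/
theorem lipP_zz (i j : Fin 3) : SD.LipP (k := ℝ) (toC (zz i j)) := by
  refine ⟨12, fun v w hv hw h1 h2 => ?_⟩
  have e1 : (toC (zz i j)) (SD.pt ℝ v hv) = ((zf i j v : ℝ) : ℂ) := rfl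
  have e2 : (toC (zz i j)) (SD.pt ℝ w hw) = ((zf i j w : ℝ) : ℂ) := rfl
  rw [e1, e2, ← Complex.ofReal_sub, Complex.norm_real, Real.norm_eq_abs]
  exact zf_lip h1 h2 i j

end Vale.Agent.P092.H406
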